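import Vale.Agent.P321.Sep

namespace Vale.Agent.Results.P321.QuasiPoly

open Vale.Agent.P321

theorem result : ∃ C : ℝ, ∀ q : ℝ, 0 < q → q < 1 → ∀ n : ℕ, 2 ≤ n →
    ∃ m : ℕ, (m : ℝ) ≤ Real.exp (C * Real.log n ^ 25 / (1 - q)) ∧
      ∃ est : (Fin m → List Bool) → (Fin n → Bool),
        ∀ x : Fin n → Bool, 2 / 3 ≤ success q est x :=
  ⟨10 ^ 16, fun _ h0 h1 _ hn => quasi h0 h1 hn⟩

end Vale.Agent.Results.P321.QuasiPoly
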